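import Crest.Agent.N250.Gl.Out
import Crest.Agent.N250.R0.Stm
import Crest.Agent.N250.Xi.Tip
import Crest.Agent.N250.Xi.Sc

-- ▼ part N250/Gl/Xi
section

/-!
# Row 250 (helper18): the glued solution for a fixed holomorphic family of end maps
-/

set_option autoImplicit false
open Set Filter Topology Metric

noncomputable section

namespace Crest.Agent.N250.Gl

variable {Ξ H P B W V A : Type*} [NormedAddCommGroup Ξ] [NormedSpace ℂ Ξ] [NormedAddCommGroup H]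
  [NormedSpace ℂ H] [NormedAddCommGroup P] [NormedSpace ℂ P] [NormedAddCommGroup B]
  [NormedSpace ℂ B] [NormedAddCommGroup W] [NormedSpace ℂ W] [NormedAddCommGroup V]
  [NormedSpace ℂ V] [NormedAddCommGroup A] [NormedSpace ℂ A]

namespace Sys

/-- the scales are fixed; `Z` is an output, `En` the limit family of end maps -/
structure Ch (S : Sys Ξ H P B W) (Z : Ξ → V) (En : A × B → W) (ρ₀ c L σ ρ r : ℝ) : Prop where
  sc : S.Sc ρ₀ c L σ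
  σ_pos : 0 < σ
  σ_le : σ ≤ 1 / 4
  ρ_pos : 0 < ρ
  ρ_le : ρ ≤ ρ₀
  r_pos : 0 < r
  r_le : r ≤ c * ρ
  Z_diff : DifferentiableOn ℂ Z (ball 0 (2 * ρ))
  Z_lin : ∀ x ∈ ball (0 : Ξ) (2 * ρ), ∀ x' ∈ ball (0 : Ξ) (2 * ρ),
    ‖Z x - Z x' - fderiv ℂ Z 0 (x - x')‖ ≤ σ * ‖x - x'‖
  E_diff : DifferentiableOn ℂ En (ball 0 r ×ˢ ball 0 (L * ρ))
  E_near : ∀ a ∈ ball (0 : A) r, ∀ b ∈ ball (0 : B) (L * ρ), ‖En (a, b) - S.P₀ b‖ ≤ c * ρ / 2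
  E_lin : ∀ a ∈ ball (0 : A) r, ∀ a' ∈ ball (0 : A) r, ∀ b ∈ ball (0 : B) (L * ρ),
    ‖En (a, b) - En (a', b) - fderiv ℂ En 0 (a - a', 0)‖ ≤ σ * ‖a - a'‖

theorem exists_ch (S : Sys Ξ H P B W) {Z : Ξ → V} {En : A × B → W} (hZ : HolAt Z) (hE : HolAt En)
    (h0 : En 0 = 0) (hP : ∀ b, fderiv ℂ En 0 (0, b) = S.P₀ b) {σ : ℝ} (hσ : 0 < σ)
    (hσ' : σ ≤ 1 / 4) : ∃ ρ₀ c L, 0 < ρ₀ ∧ ∀ ρ, 0 < ρ → ρ ≤ ρ₀ → ∃ r, S.Ch Z En ρ₀ c L σ ρ r := by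
  obtain ⟨ρ1, c, L, h⟩ := S.exists_sc hσ hσ'
  have hc := h.c_pos
  have hL := h.L_ge
  have hρ1 := h.ρ_pos
  obtain ⟨r1, hr1, hd1, hl1⟩ := hZ.lin hσ
  obtain ⟨r2, hr2, hd2, hl2⟩ := hE.lin (σ := min σ (c / (4 * L))) (by positivity)
  set D := fderiv ℂ En 0
  have hD := norm_nonneg D
  have hρ₀ : 0 < min ρ1 (min (r1 / 2) (r2 / L)) := by positivity
  refine ⟨_, c, L, hρ₀, fun ρ hρ hρ' => ⟨c * ρ / (4 * (‖D‖ + 1)), ?_⟩⟩
  have h1 : 2 * ρ ≤ r1 := by linarith [hρ'.trans ((min_le_right _ _).trans (min_le_left _ _))]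
  have h2 : L * ρ ≤ r2 := by
    rw [mul_comm, ← le_div_iff₀ (by linarith)]
    exact hρ'.trans ((min_le_right _ _).trans (min_le_right _ _))
  have h3 : c * ρ / (4 * (‖D‖ + 1)) ≤ c * ρ := div_le_self (by positivity) (by linarith)
  have h4 : c * ρ ≤ L * ρ := mul_le_mul_of_nonneg_right (h.c_le.trans hL) hρ.le
  have hm : ∀ a ∈ ball (0 : A) (c * ρ / (4 * (‖D‖ + 1))), ∀ b ∈ ball (0 : B) (L * ρ),
      ‖(a, b)‖ < L * ρ := fun a ha b hb => by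
    rw [mem_ball_zero_iff] at ha hb
    exact max_lt (ha.trans_le (h3.trans h4)) hb
  have hm' : ∀ a ∈ ball (0 : A) (c * ρ / (4 * (‖D‖ + 1))), ∀ b ∈ ball (0 : B) (L * ρ),
      (a, b) ∈ ball (0 : A × B) r2 := fun a ha b hb =>
    mem_ball_zero_iff.2 ((hm a ha b hb).trans_le h2)
  refine ⟨h.mono hρ₀ (min_le_left _ _), hσ, hσ', hρ, hρ', by positivity, h3,
    hd1.mono (ball_subset_ball h1),
    fun x hx x' hx' => hl1 x (ball_subset_ball h1 hx) x' (ball_subset_ball h1 hx'),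
    hd2.mono fun z hz => hm' _ hz.1 _ hz.2, fun a ha b hb => ?_, fun a ha a' ha' b hb => ?_⟩
  · have h5 := hl2 _ (hm' a ha b hb) 0 (mem_ball_self hr2)
    rw [h0, sub_zero, sub_zero] at h5
    have h6 : En (a, b) - S.P₀ b = (En (a, b) - D (a, b)) + D (a, 0) := by
      have : (a, b) = (a, 0) + (0, b) := by simp
      rw [← hP, this, map_add]; abel
    have h7 : ‖D (a, 0)‖ ≤ c * ρ / 4 := by
      refine (D.le_opNorm _).trans ?_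
      have : ‖(a, (0 : B))‖ = ‖a‖ := by simp [Prod.norm_def]
      rw [this]
      have h8 := (mem_ball_zero_iff.1 ha).le
      rw [le_div_iff₀ (by positivity)] at h8
      nlinarith [norm_nonneg a]
    have h9 : min σ (c / (4 * L)) * ‖(a, b)‖ ≤ c / (4 * L) * (L * ρ) :=
      mul_le_mul (min_le_right _ _) (hm a ha b hb).le (norm_nonneg _) (by positivity)
    have h10 : c / (4 * L) * (L * ρ) = c * ρ / 4 := by field_simp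
    rw [h6]
    linarith [norm_add_le (En (a, b) - D (a, b)) (D (a, 0))]
  · have h5 := hl2 _ (hm' a ha b hb) _ (hm' a' ha' b hb)
    have h6 : (a, b) - (a', b) = (a - a', 0) := by simp
    have h7 : ‖(a - a', (0 : B))‖ = ‖a - a'‖ := by simp [Prod.norm_def]
    rw [h6, h7] at h5
    exact h5.trans (mul_le_mul_of_nonneg_right (min_le_left _ _) (norm_nonneg _))

variable {S : Sys Ξ H P B W} {Z : Ξ → V} {En : A × B → W} {ρ₀ c L σ ρ r : ℝ}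

namespace Ch

theorem adm (h : S.Ch Z En ρ₀ c L σ ρ r) {y : P} (hy : ‖y‖ ≤ c * ρ) {a : A}
    (ha : a ∈ ball (0 : A) r) {e : B → W} (hd : DifferentiableOn ℂ e (ball 0 (L * ρ)))
    (he : ∀ b ∈ ball (0 : B) (L * ρ), ‖e b - En (a, b)‖ ≤ c * ρ / 2) : S.Adm c L ρ y e :=
  ⟨hy, hd, fun b hb => by
    linarith [norm_sub_le_norm_sub_add_norm_sub (e b) (En (a, b)) (S.P₀ b), he b hb,
      h.E_near a ha b hb]⟩

theorem adm0 (h : S.Ch Z En ρ₀ c L σ ρ r) {y : P} (hy : ‖y‖ ≤ c * ρ) {a : A}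
    (ha : a ∈ ball (0 : A) r) : S.Adm c L ρ y fun b => En (a, b) :=
  h.adm hy ha (h.E_diff.comp (f := fun b => (a, b)) (by fun_prop) fun _ hb => ⟨ha, hb⟩)
    fun b _ => by
      have := h.sc.c_pos
      have := h.ρ_pos
      rw [sub_self, norm_zero]; positivity

theorem y_le (h : S.Ch Z En ρ₀ c L σ ρ r) {y : P} (hy : y ∈ ball (0 : P) r) : ‖y‖ ≤ c * ρ :=
  (mem_ball_zero_iff.1 hy).le.trans h.r_le

theorem Z_lip (h : S.Ch Z En ρ₀ c L σ ρ r) {x x' : Ξ} (hx : x ∈ ball (0 : Ξ) (2 * ρ))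
    (hx' : x' ∈ ball (0 : Ξ) (2 * ρ)) : ‖Z x - Z x'‖ ≤ (‖fderiv ℂ Z 0‖ + 1) * ‖x - x'‖ := by
  have h1 := h.Z_lin x hx x' hx'
  have h2 := norm_add_le (Z x - Z x' - fderiv ℂ Z 0 (x - x')) (fderiv ℂ Z 0 (x - x'))
  have h3 := (fderiv ℂ Z 0).le_opNorm (x - x')
  rw [sub_add_cancel] at h2
  nlinarith [h.σ_le, norm_nonneg (x - x')]

variable [CompleteSpace Ξ]

/-- the solution for the limit family -/
def xi (S : Sys Ξ H P B W) (En : A × B → W) (ρ : ℝ) (q : P × A) : Ξ :=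
  S.gl ρ q.1 fun b => En (q.2, b)

theorem xi_diffOn (h : S.Ch Z En ρ₀ c L σ ρ r) :
    DifferentiableOn ℂ (xi S En ρ) (ball 0 r ×ˢ ball 0 r) :=
  h.sc.gl_diffOn h.ρ_pos h.ρ_le (isOpen_ball.prod isOpen_ball) (y := Prod.fst)
    (e := fun q b => En (q.2, b)) (fun _ hq => h.adm0 (h.y_le hq.1) hq.2) differentiableOn_fst
    (h.E_diff.comp (f := fun z : (P × A) × B => (z.1.2, z.2)) (by fun_prop)
      fun _ hz => ⟨hz.1.2, hz.2⟩)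

theorem xi_ball (h : S.Ch Z En ρ₀ c L σ ρ r) {q : P × A} (hq : q ∈ ball (0 : P) r ×ˢ ball (0 : A) r) :
    xi S En ρ q ∈ ball (0 : Ξ) (2 * ρ) :=
  h.sc.gl_ball h.ρ_pos h.ρ_le (h.adm0 (h.y_le hq.1) hq.2)

theorem Th_diffOn (h : S.Ch Z En ρ₀ c L σ ρ r) :
    DifferentiableOn ℂ (fun q => Z (xi S En ρ q)) (ball 0 r ×ˢ ball 0 r) :=
  h.Z_diff.comp h.xi_diffOn fun _ hq => h.xi_ball hq

theorem xi_zero (h : S.Ch Z En ρ₀ c L σ ρ r) (h0 : En 0 = 0) : xi S En ρ 0 = 0 := by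
  have := h.sc.base h.ρ_pos h.ρ_le (h.adm0 (h.y_le (mem_ball_self h.r_pos)) (mem_ball_self h.r_pos))
  have h1 : En (0, 0) = 0 := h0
  rw [h1, Prod.mk_zero_zero, norm_zero, mul_zero] at this
  exact norm_le_zero_iff.1 this

/-- the solution for `e` is close to the solution for the limit family -/
theorem near (h : S.Ch Z En ρ₀ c L σ ρ r) {y : P} (hy : y ∈ ball (0 : P) r) {a : A}
    (ha : a ∈ ball (0 : A) r) {e : B → W} (he : S.Adm c L ρ y e) {t : ℝ}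
    (ht : ∀ b ∈ ball (0 : B) (L * ρ), ‖e b - En (a, b)‖ ≤ t) :
    ‖S.gl ρ y e - xi S En ρ (y, a)‖ ≤ S.κ * t := by
  have a' := h.adm0 (h.y_le hy) ha
  refine (h.sc.resp h.ρ_pos h.ρ_le he a').1.trans (mul_le_mul_of_nonneg_left ?_ S.κ_nonneg)
  simpa [Prod.norm_def] using ht _ (h.sc.dat_gl h.ρ_pos h.ρ_le a')

theorem est (h : S.Ch Z En ρ₀ c L σ ρ r) {y : P} (hy : y ∈ ball (0 : P) r) {a : A}
    (ha : a ∈ ball (0 : A) r) {e : B → W} (he : S.Adm c L ρ y e) {t : ℝ}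
    (ht : ∀ b ∈ ball (0 : B) (L * ρ), ‖e b - En (a, b)‖ ≤ t) :
    ‖Z (S.gl ρ y e) - Z (xi S En ρ (y, a))‖ ≤ (‖fderiv ℂ Z 0‖ + 1) * (S.κ * t) :=
  (h.Z_lip (h.sc.gl_ball h.ρ_pos h.ρ_le he) (h.xi_ball (q := (y, a)) ⟨hy, ha⟩)).trans
    (mul_le_mul_of_nonneg_left (h.near hy ha he ht) (by positivity))

/-- Jacobian in the end parameters -/
theorem lin (h : S.Ch Z En ρ₀ c L σ ρ r) {y : P} (hy : y ∈ ball (0 : P) r) {a a' : A}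
    (ha : a ∈ ball (0 : A) r) (ha' : a' ∈ ball (0 : A) r) :
    ‖Z (xi S En ρ (y, a)) - Z (xi S En ρ (y, a')) -
        fderiv ℂ Z 0 (S.Rs (0, fderiv ℂ En 0 (a - a', 0)))‖ ≤
      σ * ((1 + ‖fderiv ℂ Z 0‖) * S.κ * (‖fderiv ℂ En 0‖ + 1) + ‖fderiv ℂ Z 0‖ * ‖S.Rs‖) *
        ‖a - a'‖ := by
  have a1 := h.adm0 (h.y_le hy) ha
  have a2 := h.adm0 (h.y_le hy) ha'
  have h1 := h.sc.jac h.ρ_pos h.ρ_le a1 a2 h.σ_pos.le h.Z_lin (fderiv ℂ En 0 (a - a', 0))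
  have h2 := h.E_lin a ha a' ha' _ (h.sc.dat_gl h.ρ_pos h.ρ_le a2)
  rw [sub_self] at h1
  refine h1.trans ?_
  set Δ := En (a, S.dat (S.gl ρ y fun b => En (a', b))) - En (a', S.dat (S.gl ρ y fun b => En (a', b)))
  have h3 : ‖((0 : P), Δ)‖ = ‖Δ‖ := by simp [Prod.norm_def]
  have h4 : ‖Δ‖ ≤ (‖fderiv ℂ En 0‖ + 1) * ‖a - a'‖ := by
    have h5 := norm_add_le (Δ - fderiv ℂ En 0 (a - a', 0)) (fderiv ℂ En 0 (a - a', 0))
    have h6 := (fderiv ℂ En 0).le_opNorm (a - a', 0)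
    have h7 : ‖(a - a', (0 : B))‖ = ‖a - a'‖ := by simp [Prod.norm_def]
    rw [sub_add_cancel] at h5
    rw [h7] at h6
    nlinarith [h.σ_le, norm_nonneg (a - a')]
  have hσ := h.σ_pos
  have hκ := S.κ_nonneg
  rw [h3]
  refine (add_le_add (mul_le_mul_of_nonneg_left h4 (by positivity))
    (mul_le_mul_of_nonneg_left h2 (by positivity))).trans (le_of_eq (by ring))

end Ch

end Sys

end Crest.Agent.N250.Gl

end
end

-- ▼ part N250/Gl/Fix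

/-!
# Row 250 (helper18): the glued family of an abstract system, in the coordinates of `R0.Glued`
-/

set_option autoImplicit false
set_option linter.unusedSectionVars false
open Set Filter Topology Metric

noncomputable section

namespace Crest.Agent.N250.Gl

open B2 (aa ofR)
open Gi (hat)
open R0 (mk Om DomA hz)

variable {ι κ : Type}

/-- the prescribed pairings of a point -/
def yy (z : ι ⊕ κ → ℂ) : ι → ℂ := fun i => z (Sum.inl i)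

/-- the domain of the end parameters `(X, a)` -/
def OmE (K X0 θ : ℝ) : Set (ℂ × (κ → ℂ)) :=
  {q | X0 < q.1.re ∧ |q.1.im| < θ / q.1.re ∧ ∀ j, B1.Adm K q.1.re (q.2 j)}

theorem hat_le {K X : ℝ} {a : ℂ} (h : B1.Adm K X a) (hK : 0 ≤ K) (hX : 2 ≤ X) :
    ‖hat X a‖ ≤ 30 / X := by
  have h1 := Xi.Tip.norm_le h hK
  have h2 := (Xi.lam_le h hK hX).trans
    ((Xi.log_le (by linarith)).trans (mul_le_mul_of_nonneg_left (Xi.quarter' (by linarith))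
      (by norm_num)))
  have h3 : ‖hat X a‖ ≤ ‖a‖ + ‖a‖ ^ 2 * (18 * X) := by
    refine (norm_add_le _ _).trans (add_le_add_right ?_ _)
    rw [norm_mul, norm_pow]
    exact mul_le_mul_of_nonneg_left h2 (by positivity)
  have h0 : 0 ≤ ‖a‖ * X := by have := norm_nonneg a; positivity
  have h4 : ‖a‖ * X ≤ 5 / 4 := by nlinarith
  rw [le_div_iff₀ (by linarith)]
  nlinarith

variable [Fintype ι] [Fintype κ]

theorem isOpen_adm (K : ℝ) : IsOpen {q : ℝ × ℂ | 0 < q.1 ∧ B1.Adm K q.1 q.2} := by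
  refine ContinuousOn.isOpen_inter_preimage (s := {q : ℝ × ℂ | 0 < q.1}) (t := Iio (9 / 8))
    (f := fun q : ℝ × ℂ => ‖q.2 * (q.1 : ℂ) ^ 2 / 2 - 1 / 8‖ + 2 * K / q.1 ^ 2) ?_
    (isOpen_lt continuous_const continuous_fst) isOpen_Iio
  exact (Continuous.continuousOn (by fun_prop)).add (continuousOn_const.div (by fun_prop)
    fun q hq => pow_ne_zero _ (ne_of_gt hq))

theorem isOpen_OmE (K : ℝ) {X0 : ℝ} (h0 : 0 ≤ X0) (θ : ℝ) : IsOpen (OmE (κ := κ) K X0 θ) := by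
  have h1 : OmE (κ := κ) K X0 θ = {q | X0 < q.1.re} ∩ ({q | |q.1.im| * q.1.re < θ} ∩
      ⋂ j, (fun q => (q.1.re, q.2 j)) ⁻¹' {q : ℝ × ℂ | 0 < q.1 ∧ B1.Adm K q.1 q.2}) := by
    ext q
    simp only [OmE, mem_ofPred_eq, mem_inter_iff, mem_iInter, mem_preimage]
    refine and_congr_right fun h => and_congr (lt_div_iff₀ (h0.trans_lt h)) ?_
    exact ⟨fun h' j => ⟨h0.trans_lt h, h' j⟩, fun h' j => (h' j).2⟩
  rw [h1]
  exact (isOpen_lt continuous_const (by fun_prop)).inter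
    ((isOpen_lt (by fun_prop) continuous_const).inter
      (isOpen_iInter_of_finite fun j => (isOpen_adm K).preimage (by fun_prop)))

theorem mem_Om {r K X0 θ : ℝ} (hr : 0 < r) {q : ℂ × (ι ⊕ κ → ℂ)} :
    q ∈ Om r K X0 θ ↔ yy q.2 ∈ ball (0 : ι → ℂ) r ∧ (q.1, aa q.2) ∈ OmE K X0 θ := by
  rw [mem_ball_zero_iff, pi_norm_lt_iff hr]
  exact ⟨fun h => ⟨h.2.2.1, h.1, h.2.1, h.2.2.2⟩, fun h => ⟨h.2.1, h.2.2.1, h.1, h.2.2.2⟩⟩

theorem diff_yy : Differentiable ℂ (yy : (ι ⊕ κ → ℂ) → ι → ℂ) :=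
  differentiable_pi.2 fun _ => differentiable_apply _

theorem diff_aa : Differentiable ℂ (aa : (ι ⊕ κ → ℂ) → κ → ℂ) :=
  differentiable_pi.2 fun _ => differentiable_apply _

theorem isOpen_Om {r : ℝ} (hr : 0 < r) (K : ℝ) {X0 : ℝ} (h0 : 0 ≤ X0) (θ : ℝ) :
    IsOpen (Om (ι := ι) (κ := κ) r K X0 θ) := by
  have : Om (ι := ι) (κ := κ) r K X0 θ = (fun q => yy q.2) ⁻¹' ball 0 r ∩
      (fun q => (q.1, aa q.2)) ⁻¹' OmE K X0 θ := Set.ext fun _ => mem_Om hr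
  rw [this]
  exact (isOpen_ball.preimage (diff_yy.continuous.comp continuous_snd)).inter
    ((isOpen_OmE K h0 θ).preimage
      (continuous_fst.prodMk (diff_aa.continuous.comp continuous_snd)))

theorem norm_yy (z : ι ⊕ κ → ℂ) : ‖yy z‖ ≤ ‖z‖ :=
  (pi_norm_le_iff_of_nonneg (norm_nonneg _)).2 fun _ => norm_le_pi_norm z _

theorem norm_aa (z : ι ⊕ κ → ℂ) : ‖aa z‖ ≤ ‖z‖ :=
  (pi_norm_le_iff_of_nonneg (norm_nonneg _)).2 fun _ => norm_le_pi_norm z _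

variable {Ξ H B W : Type*} [NormedAddCommGroup Ξ] [NormedSpace ℂ Ξ] [NormedAddCommGroup H]
  [NormedSpace ℂ H] [NormedAddCommGroup B] [NormedSpace ℂ B] [NormedAddCommGroup W]
  [NormedSpace ℂ W]

/-- the end maps for one order `N` of the far slope -/
structure EF (En : (κ → ℂ) × B → W) (cB : B → B) (cW : W → W) (rb K C0 : ℝ)
    (e : ℂ × (κ → ℂ) → B → W) (X0 θ C k : ℝ) : Prop where
  K_nonneg : 0 ≤ K
  θ_pos : 0 < θ
  k_pos : 0 < k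
  hol : DifferentiableOn ℂ (fun z : (ℂ × (κ → ℂ)) × B => e z.1 z.2) (OmE K X0 θ ×ˢ ball 0 rb)
  est : ∀ X : ℝ, X0 < X → ∀ a : κ → ℂ, (∀ j, B1.Adm K X (a j)) → ∀ b ∈ ball (0 : B) rb,
    ‖e (X, a) b - En (fun j => hat X (a j), b)‖ ≤ (C0 + C * X ^ (-k)) / X ^ 4
  cx : ∀ q ∈ OmE (κ := κ) K X0 θ, ∀ b ∈ ball (0 : B) rb,
    ‖e q b - e (q.1.re, q.2) b‖ ≤ C * (q.1.re * |q.1.im|)
  cj : ∀ X : ℝ, X0 < X → ∀ a : κ → ℂ, (∀ j, B1.Adm K X (a j)) → ∀ b ∈ ball (0 : B) rb,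
    e (X, star a) (cB b) = cW (e (X, a) b)

/-- the part of the data that does not depend on `N` -/
structure Ab (S : Sys Ξ H (ι → ℂ) B W) (I : Ξ → ι ⊕ κ → ℂ) (En : (κ → ℂ) × B → W) (cΞ : Ξ → Ξ)
    (cB : B → B) (cW : W → W) : Prop where
  hI : HolAt I
  I0 : I 0 = 0
  ΦI : ∀ ξ y w, S.Φ (ξ, y, w) = 0 → yy (I ξ) = y
  hE : HolAt En
  E0 : En 0 = 0
  hP : ∀ b, fderiv ℂ En 0 (0, b) = S.P₀ b
  inj : ∀ α, fderiv ℂ I 0 (S.Rs (0, fderiv ℂ En 0 (α, 0))) = 0 → α = 0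
  norm_c : ∀ ξ, ‖cΞ ξ‖ = ‖ξ‖
  cΦ : ∀ᶠ ξ in 𝓝 (0 : Ξ), ∀ y w, S.Φ (ξ, y, w) = 0 → S.Φ (cΞ ξ, star y, cW w) = 0
  cdat : ∀ᶠ ξ in 𝓝 (0 : Ξ), S.dat (cΞ ξ) = cB (S.dat ξ)
  cI : ∀ᶠ ξ in 𝓝 (0 : Ξ), I (cΞ ξ) = star (I ξ)
  cE : ∀ᶠ z in 𝓝 (0 : (κ → ℂ) × B), En (star z.1, cB z.2) = cW (En z)

/-- the pairings for the limit ends -/
structure Th (Θ : (ι ⊕ κ → ℂ) → ι ⊕ κ → ℂ) (r C1 : ℝ) : Prop where
  r_pos : 0 < r
  hΘ : DifferentiableOn ℂ Θ (ball 0 r)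
  Θ_inl : ∀ z ∈ ball (0 : ι ⊕ κ → ℂ) r, ∀ i, Θ z (Sum.inl i) = z (Sum.inl i)
  Θ_zero : Θ 0 = 0
  Θ_real : ∀ x : ι ⊕ κ → ℝ, ‖x‖ < r → ∀ l, (Θ (ofR x) l).im = 0
  jac : ∀ α : κ → ℂ, ‖α‖ ≤ C1 * ‖fderiv ℂ Θ 0 (mk 0 α)‖

/-- the glued family `ξ`, of size at most `ρ` -/
structure Fix (S : Sys Ξ H (ι → ℂ) B W) (I : Ξ → ι ⊕ κ → ℂ) (cΞ : Ξ → Ξ)
    (e : ℂ × (κ → ℂ) → B → W) (Θ : (ι ⊕ κ → ℂ) → ι ⊕ κ → ℂ) (ξ : ℂ × (ι ⊕ κ → ℂ) → Ξ)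
    (ρ r K C0 X1 θ C k : ℝ) : Prop where
  r_pos : 0 < r
  X1_ge : 2 ≤ X1
  θ_pos : 0 < θ
  θ_le : θ ≤ 1
  k_pos : 0 < k
  hol : DifferentiableOn ℂ ξ (Om r K X1 θ)
  eq : ∀ q ∈ Om r K X1 θ, S.Φ (ξ q, yy q.2, e (q.1, aa q.2) (S.dat (ξ q))) = 0
  small : ∀ q ∈ Om r K X1 θ, ‖ξ q‖ < ρ ∧ ‖S.dat (ξ q)‖ < ρ
  holb : DifferentiableOn ℂ (fun q => S.dat (ξ q)) (Om r K X1 θ)
  holI : DifferentiableOn ℂ (fun q => I (ξ q)) (Om r K X1 θ)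
  bdI : ∀ q ∈ Om r K X1 θ, ‖I (ξ q)‖ ≤ C
  cj : ∀ X : ℝ, X1 < X → ∀ w ∈ DomA r K X, ξ (X, star w) = cΞ (ξ (X, w))
  base : ∀ ε, 0 < ε → ∃ δ, 0 < δ ∧ ∀ X : ℝ, δ⁻¹ < X → X1 < X → ∀ w ∈ DomA r K X, ‖yy w‖ < δ →
    ‖ξ (X, w)‖ < ε ∧ ‖S.dat (ξ (X, w))‖ < ε
  est : ∀ X : ℝ, X1 < X → ∀ w ∈ DomA r K X,
    ‖I (ξ (X, w)) - Θ (hz X w)‖ ≤ (C0 + C * X ^ (-k)) / X ^ 4

theorem star_ofR {σ : Type} (x : σ → ℝ) : star (ofR x) = ofR x :=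
  funext fun _ => Complex.conj_ofReal _

theorem im_of_star {σ : Type} {z : σ → ℂ} (h : star z = z) (l : σ) : (z l).im = 0 :=
  Complex.conj_eq_iff_im.1 (congrFun h l)

theorem exists_low {V : Type*} [NormedAddCommGroup V] [NormedSpace ℂ V] (M : (κ → ℂ) →L[ℂ] V)
    (h : ∀ α, M α = 0 → α = 0) : ∃ C, 0 < C ∧ ∀ α, ‖α‖ ≤ C * ‖M α‖ := by
  obtain ⟨K, h0, hK⟩ := (M : (κ → ℂ) →ₗ[ℂ] V).exists_antilipschitzWith (LinearMap.ker_eq_bot'.2 h)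
  exact ⟨K, h0, fun α => by simpa using hK.le_mul_dist α 0⟩

theorem fd_dir {E V : Type*} [NormedAddCommGroup E] [NormedSpace ℂ E] [NormedAddCommGroup V]
    [NormedSpace ℂ V] {f : E → V} (hf : DifferentiableAt ℂ f 0) {v : E} {m : V} {τ : ℝ}
    (h : ∀ᶠ t : ℂ in 𝓝 0, ‖f (t • v) - f 0 - t • m‖ ≤ τ * ‖t‖) : ‖fderiv ℂ f 0 v - m‖ ≤ τ := by
  have h1 : HasDerivAt (fun t : ℂ => t • v) v 0 := by simpa using (hasDerivAt_id (0 : ℂ)).smul_const v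
  have h2 : HasFDerivAt f (fderiv ℂ f 0) ((fun t : ℂ => t • v) 0) := by simpa using hf.hasFDerivAt
  have h3 : HasDerivAt (fun t : ℂ => f (t • v) - t • m) (fderiv ℂ f 0 v - m) 0 :=
    (h2.comp_hasDerivAt 0 h1).sub (by simpa using (hasDerivAt_id (0 : ℂ)).smul_const m)
  have hτ : 0 ≤ τ := by
    obtain ⟨t, ht, h0⟩ := ((h.filter_mono nhdsWithin_le_nhds).and
      (self_mem_nhdsWithin (a := (0 : ℂ)) (s := {0}ᶜ))).exists
    exact nonneg_of_mul_nonneg_left ((norm_nonneg _).trans ht) (norm_pos_iff.2 h0)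
  refine h3.le_of_lip' hτ (h.mono fun t ht => ?_)
  rw [sub_zero, zero_smul, zero_smul, sub_zero, sub_right_comm]
  exact ht

end Crest.Agent.N250.Gl

end
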