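import Crest.Agent.N250.H.Fix

-- ▼ part N250/Gl/Ift
section

/-!
# Row 250 (helper18): quantitative holomorphic implicit function theorem, `1 - compact`

`Near A F ρ σ`: on the ball of radius `2 ρ` the map `A⁻¹ F` is holomorphic and `σ ρ`-close to the
identity.  Then `F` has exactly one zero `sol F ρ` in the closed ball of radius `ρ`.
-/

set_option autoImplicit false
open Set Filter Topology Metric

noncomputable section

namespace Crest.Agent.N250.Gl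

open Crest.Agent.N250.H

variable {X Y P Z : Type*} [NormedAddCommGroup X] [NormedSpace ℂ X] [NormedAddCommGroup Y]
  [NormedSpace ℂ Y] [NormedAddCommGroup P] [NormedSpace ℂ P] [NormedAddCommGroup Z]
  [NormedSpace ℂ Z]

/-- `A⁻¹ F` is close to the identity on the ball of radius `2 ρ` -/
structure Near (A : X ≃L[ℂ] Y) (F : X → Y) (ρ σ : ℝ) : Prop where
  ρ_pos : 0 < ρ
  σ_le : σ ≤ 1 / 4
  diff : DifferentiableOn ℂ F (ball 0 (2 * ρ))
  bd : ∀ x ∈ ball (0 : X) (2 * ρ), ‖x - A.symm (F x)‖ ≤ σ * ρ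

/-- the zero of `F` in the closed ball of radius `ρ` -/
def sol (F : X → Y) (ρ : ℝ) : X := by
  classical exact if h : ∃ x ∈ closedBall (0 : X) ρ, F x = 0 then h.choose else 0

namespace Near

variable {A : X ≃L[ℂ] Y} {F G : X → Y} {ρ σ τ : ℝ}

theorem σ_nonneg (h : Near A F ρ σ) : 0 ≤ σ := by
  have := (norm_nonneg _).trans (h.bd 0 (mem_ball_self (by linarith [h.ρ_pos])))
  exact nonneg_of_mul_nonneg_left this h.ρ_pos

theorem sub (h : Near A F ρ σ) : closedBall (0 : X) ρ ⊆ ball 0 (2 * ρ) :=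
  closedBall_subset_ball (by linarith [h.ρ_pos])

theorem diffT (h : Near A F ρ σ) :
    DifferentiableOn ℂ (fun x => x - A.symm (F x)) (ball 0 (ρ + ρ)) := by
  rw [← two_mul]
  exact differentiableOn_id.sub (A.symm.differentiable.comp_differentiableOn h.diff)

theorem ctr (h : Near A F ρ σ) : Ctr (fun x => x - A.symm (F x)) (closedBall 0 ρ) (2 * σ) := by
  have hρ := h.ρ_pos
  have := ctr_of_small (x0 := 0) (ε := σ * ρ) hρ h.diffT
    (fun x hx => by rw [sub_zero]; exact h.bd x (by rwa [two_mul])) (by nlinarith [h.σ_le])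
  rwa [← mul_assoc, mul_div_cancel_right₀ _ hρ.ne'] at this

/-- lower Lipschitz bound: uniqueness and every comparison -/
theorem cmp (h : Near A F ρ σ) {x y : X} (hx : x ∈ closedBall (0 : X) ρ)
    (hy : y ∈ closedBall (0 : X) ρ) : ‖x - y‖ ≤ 2 * ‖A.symm (F x - F y)‖ := by
  have h1 := h.ctr.lip x hx y hy
  have h2 : x - y = (x - A.symm (F x) - (y - A.symm (F y))) + A.symm (F x - F y) := by
    rw [map_sub]; abel
  have h3 : ‖x - y‖ ≤ ‖x - A.symm (F x) - (y - A.symm (F y))‖ + ‖A.symm (F x - F y)‖ := by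
    conv_lhs => rw [h2]
    exact norm_add_le _ _
  nlinarith [h.σ_le, norm_nonneg (x - y)]

theorem uniq (h : Near A F ρ σ) {x y : X} (hx : x ∈ closedBall (0 : X) ρ)
    (hy : y ∈ closedBall (0 : X) ρ) (e : F x = F y) : x = y := by
  have := h.cmp hx hy
  rw [e, sub_self, map_zero, norm_zero, mul_zero] at this
  exact sub_eq_zero.1 (norm_le_zero_iff.1 this)

/-- the derivative of `A⁻¹ F` is close to the identity -/
theorem fd (h : Near A F ρ σ) {x : X} (hx : x ∈ closedBall (0 : X) ρ) (v : X) :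
    ‖v - A.symm (fderiv ℂ F x v)‖ ≤ 2 * σ * ‖v‖ := by
  have hρ := h.ρ_pos
  have hs : ball x ρ ⊆ ball 0 (ρ + ρ) :=
    ball_subset_ball' (by rw [mem_closedBall] at hx; linarith)
  have h1 := fd_le (M := σ * ρ) hρ (h.diffT.mono hs)
    (fun z hz => h.bd z (by rw [two_mul]; exact hs hz))
  have hF : DifferentiableAt ℂ F x := h.diff.differentiableAt (isOpen_ball.mem_nhds (h.sub hx))
  have h2 : HasFDerivAt (fun x => x - A.symm (F x))
      (ContinuousLinearMap.id ℂ X - (A.symm : Y →L[ℂ] X) ∘L fderiv ℂ F x) x :=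
    (hasFDerivAt_id x).sub ((A.symm : Y →L[ℂ] X).hasFDerivAt.comp x hF.hasFDerivAt)
  rw [h2.fderiv, ← mul_assoc, mul_div_cancel_right₀ _ hρ.ne'] at h1
  exact (ContinuousLinearMap.le_of_opNorm_le _ h1 v)


variable [CompleteSpace X]

theorem ex (h : Near A F ρ σ) : ∃ x ∈ closedBall (0 : X) ρ, F x = 0 := by
  obtain ⟨x, hx, e⟩ := h.ctr.exists_fix isClosed_closedBall (by linarith [h.σ_nonneg])
    (by linarith [h.σ_le]) ⟨0, mem_closedBall_self h.ρ_pos.le⟩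
  exact ⟨x, hx, by simpa using e⟩

theorem sol_mem (h : Near A F ρ σ) : sol F ρ ∈ closedBall (0 : X) ρ := by
  rw [sol, dif_pos h.ex]; exact h.ex.choose_spec.1

theorem sol_eq (h : Near A F ρ σ) : F (sol F ρ) = 0 := by
  rw [sol, dif_pos h.ex]; exact h.ex.choose_spec.2

theorem eq_sol (h : Near A F ρ σ) {x : X} (hx : x ∈ closedBall (0 : X) ρ) (e : F x = 0) :
    x = sol F ρ := h.uniq hx h.sol_mem (e.trans h.sol_eq.symm)


/-- distance of an approximate solution to the solution -/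
theorem dist_sol (h : Near A F ρ σ) {x : X} (hx : x ∈ closedBall (0 : X) ρ) :
    ‖x - sol F ρ‖ ≤ 2 * ‖A.symm (F x)‖ := by
  simpa [h.sol_eq] using h.cmp hx h.sol_mem



end Near

/-- **holomorphy in parameters** -/
theorem sol_diffOn [CompleteSpace X] {A : X ≃L[ℂ] Y} {F : Z → X → Y} {ρ σ : ℝ} {U : Set Z}
    (hU : IsOpen U) (h : ∀ z ∈ U, Near A (F z) ρ σ)
    (hd : DifferentiableOn ℂ (fun q : Z × X => F q.1 q.2) (U ×ˢ ball 0 (2 * ρ))) :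
    DifferentiableOn ℂ (fun z => sol (F z) ρ) U := by
  rcases U.eq_empty_or_nonempty with rfl | ⟨z0, hz0⟩
  · exact differentiableOn_empty
  have h0 := h z0 hz0
  obtain ⟨x, hx, hx'⟩ := exists_fix_hol (T := fun z x => x - A.symm (F z x)) (k := 2 * σ) (ρ := ρ)
    (x0 := 0) (V := U ×ˢ ball 0 (2 * ρ)) hU (by linarith [h0.σ_nonneg]) (by linarith [h0.σ_le])
    h0.ρ_pos.le (fun z hz => (h z hz).ctr) (fun z hz x hx => ⟨hz, h0.sub hx⟩)
    (differentiableOn_snd.sub (A.symm.differentiable.comp_differentiableOn hd))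
  refine hx.congr fun z hz => ((h z hz).eq_sol (hx' z hz).1 ?_).symm
  simpa using (hx' z hz).2


/-- **entrance**: every holomorphic map close to a slice of a model `F₀` is `Near` -/
theorem near_of {A : X ≃L[ℂ] Y} {F₀ : X × P → Y} {T : X × P →L[ℂ] Y} (h0 : F₀ 0 = 0)
    (hT : HasFDerivAt F₀ T 0) (hA : ∀ x, T (x, 0) = A x) {σ : ℝ} (hσ : 0 < σ) (hσ' : σ ≤ 1 / 4) :
    ∃ ρ₀ c : ℝ, 0 < ρ₀ ∧ 0 < c ∧ c ≤ 1 ∧ ∀ ρ, 0 < ρ → ρ ≤ ρ₀ → ∀ (F : X → Y) (p : P), ‖p‖ ≤ c * ρ →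
      DifferentiableOn ℂ F (ball 0 (2 * ρ)) →
      (∀ x ∈ ball (0 : X) (2 * ρ), ‖F x - F₀ (x, p)‖ ≤ c * ρ) → Near A F ρ σ := by
  set κ := ‖(A.symm : Y →L[ℂ] X)‖ + 1 with hκ
  have hκ0 : 0 < κ := by positivity
  have hA' : ∀ y, ‖A.symm y‖ ≤ κ * ‖y‖ := fun y =>
    ((A.symm : Y →L[ℂ] X).le_opNorm y).trans
      (mul_le_mul_of_nonneg_right (by linarith) (norm_nonneg _))
  have h1 := (hasFDerivAt_iff_isLittleO.1 hT).def (c := σ / (4 * κ)) (by positivity)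
  obtain ⟨r, hr, hb⟩ := Metric.eventually_nhds_iff.1 h1
  set t := ‖T‖ + 1 with ht
  have ht0 : 0 < t := by positivity
  have ht1 : 1 ≤ t := by linarith [norm_nonneg T]
  have hκ1 : 1 ≤ κ := by linarith [norm_nonneg (A.symm : Y →L[ℂ] X)]
  have hc1 : σ / (4 * κ * t) ≤ 1 := by
    rw [div_le_one (by positivity)]; nlinarith [mul_le_mul hκ1 ht1 zero_le_one hκ0.le]
  refine ⟨r / 2, σ / (4 * κ * t), by positivity, by positivity, hc1,
    fun ρ hρ hρr F p hp hd hF => ⟨hρ, hσ', hd, fun x hx => ?_⟩⟩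
  have hx' : ‖x‖ < 2 * ρ := mem_ball_zero_iff.1 hx
  have hp' : ‖p‖ ≤ ρ := hp.trans (by nlinarith)
  have hq : ‖(x, p)‖ < 2 * ρ := by rw [Prod.norm_def]; exact max_lt hx' (by linarith)
  have h2 := hb (y := (x, p)) (by rw [dist_zero_right]; linarith)
  simp only [h0, sub_zero] at h2
  have e : x - A.symm (F x) =
      -A.symm ((F x - F₀ (x, p)) + (F₀ (x, p) - T (x, p)) + T (0, p)) := by
    have : T (x, p) = A x + T (0, p) := by rw [← hA, ← map_add]; simp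
    rw [this]
    simp only [map_add, map_sub, ContinuousLinearEquiv.symm_apply_apply]
    abel
  rw [e, norm_neg]
  refine (hA' _).trans ?_
  have h3 : ‖T (0, p)‖ ≤ t * (σ / (4 * κ * t) * ρ) := by
    refine (T.le_opNorm _).trans (mul_le_mul (by linarith) ?_ (norm_nonneg _) ht0.le)
    simpa [Prod.norm_def] using hp
  have h4 : t * (σ / (4 * κ * t) * ρ) = σ / (4 * κ) * ρ := by field_simp
  have h5 : σ / (4 * κ * t) * ρ ≤ σ / (4 * κ) * ρ := by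
    rw [← h4]; exact le_mul_of_one_le_left (by positivity) ht1
  have h6 : σ / (4 * κ) * ‖(x, p)‖ ≤ σ / (4 * κ) * (2 * ρ) :=
    mul_le_mul_of_nonneg_left hq.le (by positivity)
  have h7 := norm_add₃_le (a := F x - F₀ (x, p)) (b := F₀ (x, p) - T (x, p)) (c := T (0, p))
  have h8 : ‖F x - F₀ (x, p) + (F₀ (x, p) - T (x, p)) + T (0, p)‖ ≤ σ / κ * ρ := by
    have e2 : σ / κ * ρ = 4 * (σ / (4 * κ) * ρ) := by field_simp
    linarith [hF x hx]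
  calc κ * _ ≤ κ * (σ / κ * ρ) := mul_le_mul_of_nonneg_left h8 hκ0.le
    _ = σ * ρ := by field_simp


end Crest.Agent.N250.Gl

end
end

-- ▼ part N250/Gl/Sys

/-!
# Row 250 (helper18): the abstract gluing system

Unknown `ξ : Ξ`, parameter `y : P`, boundary data `dat ξ : B`, end map `e : B → W` (close to a
linear model `P₀`), equation `Φ (ξ, y, e (dat ξ)) = 0`.
-/

set_option autoImplicit false
open Set Filter Topology Metric

noncomputable section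

namespace Crest.Agent.N250.Gl

open Crest.Agent.N250.H

variable {Ξ H P B W Q : Type*} [NormedAddCommGroup Ξ] [NormedSpace ℂ Ξ] [NormedAddCommGroup H]
  [NormedSpace ℂ H] [NormedAddCommGroup P] [NormedSpace ℂ P] [NormedAddCommGroup B]
  [NormedSpace ℂ B] [NormedAddCommGroup W] [NormedSpace ℂ W] [NormedAddCommGroup Q]
  [NormedSpace ℂ Q]

/-- holomorphic near `0` -/
def HolAt (f : Ξ → H) : Prop := ∀ᶠ x in 𝓝 (0 : Ξ), DifferentiableAt ℂ f x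

theorem HolAt.lip {f : Ξ → H} (h : HolAt f) : ∃ r L : ℝ, 0 < r ∧ 1 ≤ L ∧
    DifferentiableOn ℂ f (ball 0 r) ∧ (∀ x ∈ ball (0 : Ξ) r, ‖fderiv ℂ f x‖ ≤ L) ∧
    ∀ x ∈ ball (0 : Ξ) r, ∀ y ∈ ball (0 : Ξ) r, ‖f x - f y‖ ≤ L * ‖x - y‖ := by
  have h1 : ∀ᶠ x in 𝓝 (0 : Ξ), ‖f x‖ ≤ ‖f 0‖ + 1 :=
    (h.self_of_nhds.continuousAt.norm.eventually (gt_mem_nhds (lt_add_one _))).mono fun _ => le_of_lt
  obtain ⟨r, hr, hb⟩ := Metric.eventually_nhds_iff_ball.1 (h.and h1)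
  have hs : ∀ x ∈ ball (0 : Ξ) (r / 2), ball x (r / 2) ⊆ ball 0 r := fun x hx =>
    ball_subset_ball' (by rw [mem_ball] at hx; linarith)
  have hd : ∀ x ∈ ball (0 : Ξ) (r / 2), DifferentiableAt ℂ f x := fun x hx =>
    (hb x (ball_subset_ball (by linarith) hx)).1
  have hL : ∀ x ∈ ball (0 : Ξ) (r / 2), ‖fderiv ℂ f x‖ ≤ 2 * (‖f 0‖ + 1) / (r / 2) + 1 :=
    fun x hx => (fd_le (by linarith) (fun z hz => (hb z (hs x hx hz)).1.differentiableWithinAt)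
      (fun z hz => (hb z (hs x hx hz)).2)).trans (by linarith)
  refine ⟨r / 2, 2 * (‖f 0‖ + 1) / (r / 2) + 1, by linarith, le_add_of_nonneg_left (by positivity),
    fun x hx => (hd x hx).differentiableWithinAt, hL, fun x hx y hy => ?_⟩
  exact (convex_ball 0 _).norm_image_sub_le_of_norm_fderiv_le (𝕜 := ℂ) hd hL hy hx

/-- the derivative of a holomorphic map is continuous at `0` -/
theorem HolAt.fd_near {f : Ξ → H} (h : HolAt f) {σ : ℝ} (hσ : 0 < σ) :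
    ∀ᶠ x in 𝓝 (0 : Ξ), ‖fderiv ℂ f x - fderiv ℂ f 0‖ ≤ σ := by
  have h1 := (hasFDerivAt_iff_isLittleO.1 h.self_of_nhds.hasFDerivAt).def (c := σ / 4)
    (by positivity)
  obtain ⟨r, hr, hb⟩ := Metric.eventually_nhds_iff_ball.1 (h.and h1)
  filter_upwards [ball_mem_nhds (0 : Ξ) (half_pos hr)] with x hx
  have hs : ball x (r / 2) ⊆ ball 0 r := ball_subset_ball' (by rw [mem_ball] at hx; linarith)
  have h2 := fd_le (f := fun z => f z - f 0 - fderiv ℂ f 0 z) (c := x) (M := σ / 4 * r) (half_pos hr)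
    (fun z hz => (((hb z (hs hz)).1.sub_const _).sub
      (fderiv ℂ f 0).differentiableAt).differentiableWithinAt)
    (fun z hz => by
      have h3 := (hb z (hs hz)).2
      rw [sub_zero] at h3
      exact h3.trans (mul_le_mul_of_nonneg_left (mem_ball_zero_iff.1 (hs hz)).le (by positivity)))
  have h4 : HasFDerivAt (fun z => f z - f 0 - fderiv ℂ f 0 z) (fderiv ℂ f x - fderiv ℂ f 0) x :=
    (((hb x (hs (mem_ball_self (half_pos hr)))).1.hasFDerivAt).sub_const _).sub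
      (fderiv ℂ f 0).hasFDerivAt
  rw [h4.fderiv] at h2
  refine h2.trans (le_of_eq ?_)
  field_simp
  ring

/-- the data of the gluing system -/
structure Sys (Ξ H P B W : Type*) [NormedAddCommGroup Ξ] [NormedSpace ℂ Ξ] [NormedAddCommGroup H]
    [NormedSpace ℂ H] [NormedAddCommGroup P] [NormedSpace ℂ P] [NormedAddCommGroup B]
    [NormedSpace ℂ B] [NormedAddCommGroup W] [NormedSpace ℂ W] where
  Φ : Ξ × P × W → H
  dat : Ξ → B
  P₀ : B →L[ℂ] W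
  A : Ξ ≃L[ℂ] H
  hΦ : HolAt Φ
  hdat : HolAt dat
  Φ0 : Φ 0 = 0
  dat0 : dat 0 = 0
  hA : ∀ ξ, A ξ = fderiv ℂ Φ 0 (ξ, 0, P₀ (fderiv ℂ dat 0 ξ))

namespace Sys

variable (S : Sys Ξ H P B W)

/-- the equation -/
def F (y : P) (e : B → W) (ξ : Ξ) : H := S.Φ (ξ, y, e (S.dat ξ))

/-- admissible scales: `ρ` radius of the unknown, `L ρ` radius of the data, `c ρ` tolerance -/
structure Sc (ρ₀ c L σ : ℝ) : Prop where
  ρ_pos : 0 < ρ₀
  c_pos : 0 < c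
  c_le : c ≤ 1
  L_ge : 1 ≤ L
  dat_mem : ∀ ρ, ρ ≤ ρ₀ → ∀ ξ ∈ ball (0 : Ξ) (2 * ρ), S.dat ξ ∈ ball (0 : B) (L * ρ)
  dat_diff : DifferentiableOn ℂ S.dat (ball 0 (2 * ρ₀))
  dat_fd : ∀ ξ ∈ ball (0 : Ξ) (2 * ρ₀), ‖fderiv ℂ S.dat ξ‖ ≤ L
  Φ_diff : DifferentiableOn ℂ S.Φ (ball 0 (L * L * ρ₀))
  Φ_lip : ∀ u ∈ ball (0 : Ξ × P × W) (L * L * ρ₀), ∀ v ∈ ball (0 : Ξ × P × W) (L * L * ρ₀),
    ‖S.Φ u - S.Φ v‖ ≤ L * ‖u - v‖
  Φ_fd : ∀ u ∈ ball (0 : Ξ × P × W) (L * L * ρ₀), ‖fderiv ℂ S.Φ u - fderiv ℂ S.Φ 0‖ ≤ σ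
  mem : ∀ ρ, 0 < ρ → ρ ≤ ρ₀ → ∀ ξ ∈ ball (0 : Ξ) (2 * ρ), ∀ y : P, ‖y‖ ≤ c * ρ → ∀ w : W,
    ‖w - S.P₀ (S.dat ξ)‖ ≤ c * ρ → (ξ, y, w) ∈ ball (0 : Ξ × P × W) (L * L * ρ)
  near : ∀ ρ, 0 < ρ → ρ ≤ ρ₀ → ∀ (y : P) (e : B → W), ‖y‖ ≤ c * ρ →
    DifferentiableOn ℂ e (ball 0 (L * ρ)) → (∀ b ∈ ball (0 : B) (L * ρ), ‖e b - S.P₀ b‖ ≤ c * ρ) →
    Near S.A (S.F y e) ρ σ

theorem exists_sc {σ : ℝ} (hσ : 0 < σ) (hσ' : σ ≤ 1 / 4) : ∃ ρ₀ c L, S.Sc ρ₀ c L σ := by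
  obtain ⟨r1, L1, hr1, hL1, hd1, hf1, hl1⟩ := S.hΦ.lip
  obtain ⟨r2, L2, hr2, hL2, hd2, hf2, hl2⟩ := S.hdat.lip
  obtain ⟨r3, hr3, h3⟩ := Metric.eventually_nhds_iff_ball.1 (S.hΦ.fd_near hσ)
  have hD := S.hdat.self_of_nhds.hasFDerivAt
  have hin : HasFDerivAt (fun q : Ξ × P => (q.1, q.2, S.P₀ (S.dat q.1)))
      ((ContinuousLinearMap.fst ℂ Ξ P).prod ((ContinuousLinearMap.snd ℂ Ξ P).prod
        (S.P₀ ∘L fderiv ℂ S.dat 0 ∘L ContinuousLinearMap.fst ℂ Ξ P))) 0 :=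
    hasFDerivAt_fst.prodMk (hasFDerivAt_snd.prodMk
      (S.P₀.hasFDerivAt.comp (0 : Ξ × P) (HasFDerivAt.comp (0 : Ξ × P) (f := Prod.fst) hD
        hasFDerivAt_fst)))
  have hΦ0 : HasFDerivAt S.Φ (fderiv ℂ S.Φ 0)
      ((fun q : Ξ × P => (q.1, q.2, S.P₀ (S.dat q.1))) 0) := by
    have : (fun q : Ξ × P => (q.1, q.2, S.P₀ (S.dat q.1))) 0 = 0 := by simp [S.dat0]
    rw [this]; exact S.hΦ.self_of_nhds.hasFDerivAt
  obtain ⟨ρ1, c, hρ1, hc, hc1, hN⟩ := near_of (A := S.A)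
    (F₀ := fun q : Ξ × P => S.Φ (q.1, q.2, S.P₀ (S.dat q.1))) (by simp only [Prod.fst_zero, Prod.snd_zero, S.dat0, map_zero]; exact S.Φ0)
    (hΦ0.comp 0 hin) (fun x => by simp [S.hA]) hσ hσ'
  set L := L1 + 2 * L2 + ‖S.P₀‖ + 2 with hL
  have hP := norm_nonneg S.P₀
  have hL0 : 2 ≤ L := by linarith
  have hLL : 0 < L * L := by positivity
  set ρ₀ := min (min ρ1 (r2 / 2)) (min r1 r3 / (L * L)) with hρ₀
  have hρ₀1 : ρ₀ ≤ ρ1 := (min_le_left _ _).trans (min_le_left _ _)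
  have hρ₀2 : 2 * ρ₀ ≤ r2 := by linarith [(min_le_left _ _).trans (min_le_right ρ1 _) |>.trans' hρ₀.le]
  have hρ₀3 : L * L * ρ₀ ≤ min r1 r3 := by
    rw [mul_comm, ← le_div_iff₀ hLL]; exact min_le_right _ _
  have hb1 : ball (0 : Ξ × P × W) (L * L * ρ₀) ⊆ ball 0 r1 :=
    ball_subset_ball (hρ₀3.trans (min_le_left _ _))
  have hdat : ∀ ρ, ρ ≤ ρ₀ → ∀ ξ ∈ ball (0 : Ξ) (2 * ρ), S.dat ξ ∈ ball (0 : B) (L * ρ) := by
    intro ρ hρ ξ hξ
    have h1 := hl2 ξ (ball_subset_ball (by linarith) hξ) 0 (mem_ball_self hr2)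
    rw [S.dat0, sub_zero, sub_zero] at h1
    rw [mem_ball_zero_iff] at hξ ⊢
    have h2 : 0 < ρ := by linarith [norm_nonneg ξ]
    nlinarith
  have hcL : c / L ≤ c := div_le_self hc.le (by linarith)
  have hmem : ∀ ρ, 0 < ρ → ρ ≤ ρ₀ → ∀ ξ ∈ ball (0 : Ξ) (2 * ρ), ∀ y : P, ‖y‖ ≤ c / L * ρ → ∀ w : W,
      ‖w - S.P₀ (S.dat ξ)‖ ≤ c / L * ρ → (ξ, y, w) ∈ ball (0 : Ξ × P × W) (L * L * ρ) := by
    intro ρ hρ hρ' ξ hξ y hy w hw
    have h1 := mem_ball_zero_iff.1 (hdat ρ hρ' ξ hξ)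
    have h2 := S.P₀.le_opNorm (S.dat ξ)
    have h3 : ‖S.P₀‖ * ‖S.dat ξ‖ ≤ ‖S.P₀‖ * (L * ρ) := mul_le_mul_of_nonneg_left h1.le hP
    have h4 : ‖w‖ ≤ ‖w - S.P₀ (S.dat ξ)‖ + ‖S.P₀ (S.dat ξ)‖ := by
      simpa using norm_add_le (w - S.P₀ (S.dat ξ)) (S.P₀ (S.dat ξ))
    have h5 : c / L * ρ ≤ ρ := by nlinarith
    have h6 : 2 * ρ ≤ L * ρ := by nlinarith
    have h7 : (‖S.P₀‖ + 2) * (L * ρ) ≤ L * (L * ρ) :=
      mul_le_mul_of_nonneg_right (by linarith) (by positivity)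
    rw [mem_ball_zero_iff] at hξ ⊢
    rw [Prod.norm_def, Prod.norm_def]
    refine max_lt ?_ (max_lt ?_ ?_) <;> simp only <;> nlinarith
  refine ⟨ρ₀, c / L, L, by positivity, by positivity, hcL.trans hc1, by linarith, hdat,
    hd2.mono (ball_subset_ball hρ₀2),
    fun ξ hξ => (hf2 ξ (ball_subset_ball hρ₀2 hξ)).trans (by linarith), hd1.mono hb1,
    fun u hu v hv => (hl1 u (hb1 hu) v (hb1 hv)).trans
      (mul_le_mul_of_nonneg_right (by linarith) (norm_nonneg _)),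
    fun u hu => h3 u (ball_subset_ball (hρ₀3.trans (min_le_right _ _)) hu), hmem,
    fun ρ hρ hρ' y e hy he hb => ?_⟩
  have hsub : ball (0 : Ξ × P × W) (L * L * ρ) ⊆ ball 0 r1 :=
    (ball_subset_ball (mul_le_mul_of_nonneg_left hρ' hLL.le)).trans hb1
  refine hN ρ hρ (hρ'.trans hρ₀1) _ y (hy.trans (by nlinarith)) ?_ fun ξ hξ => ?_
  · refine hd1.comp (f := fun ξ => (ξ, y, e (S.dat ξ))) (differentiableOn_id.prodMk
      ((differentiableOn_const _).prodMk (he.comp (hd2.mono (ball_subset_ball (by linarith)))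
        (hdat ρ hρ')))) fun ξ hξ => hsub (hmem ρ hρ hρ' ξ hξ y hy _ (hb _ (hdat ρ hρ' ξ hξ)))
  · refine (hl1 _ (hsub (hmem ρ hρ hρ' ξ hξ y hy _ (hb _ (hdat ρ hρ' ξ hξ)))) _
      (hsub (hmem ρ hρ hρ' ξ hξ y hy _ (by rw [sub_self, norm_zero]; positivity)))).trans ?_
    have h1 := hb _ (hdat ρ hρ' ξ hξ)
    have h2 : ‖(ξ, y, e (S.dat ξ)) - (ξ, y, S.P₀ (S.dat ξ))‖ = ‖e (S.dat ξ) - S.P₀ (S.dat ξ)‖ := by
      simp [Prod.norm_def]
    rw [h2]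
    calc L1 * _ ≤ L * (c / L * ρ) := mul_le_mul (by linarith) h1 (norm_nonneg _) (by linarith)
      _ = c * ρ := by field_simp

variable {S} {ρ₀ c L σ ρ : ℝ}

/-- admissible pairs (parameter, end map) at scale `ρ` -/
structure Adm (S : Sys Ξ H P B W) (c L ρ : ℝ) (y : P) (e : B → W) : Prop where
  y_le : ‖y‖ ≤ c * ρ
  diff : DifferentiableOn ℂ e (ball 0 (L * ρ))
  close : ∀ b ∈ ball (0 : B) (L * ρ), ‖e b - S.P₀ b‖ ≤ c * ρ

theorem Sc.near' (h : S.Sc ρ₀ c L σ) (hρ : 0 < ρ) (hρ' : ρ ≤ ρ₀) {y : P} {e : B → W}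
    (a : S.Adm c L ρ y e) : Near S.A (S.F y e) ρ σ := h.near ρ hρ hρ' y e a.y_le a.diff a.close

theorem Sc.mem' (h : S.Sc ρ₀ c L σ) (hρ : 0 < ρ) (hρ' : ρ ≤ ρ₀) {y : P} {e : B → W}
    (a : S.Adm c L ρ y e) {ξ : Ξ} (hξ : ξ ∈ ball (0 : Ξ) (2 * ρ)) :
    (ξ, y, e (S.dat ξ)) ∈ ball (0 : Ξ × P × W) (L * L * ρ₀) :=
  ball_subset_ball (mul_le_mul_of_nonneg_left hρ' (mul_self_nonneg L))
    (h.mem ρ hρ hρ' ξ hξ y a.y_le _ (a.close _ (h.dat_mem ρ hρ' ξ hξ)))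

variable [CompleteSpace Ξ]

/-- the glued solution -/
def gl (S : Sys Ξ H P B W) (ρ : ℝ) (y : P) (e : B → W) : Ξ := sol (S.F y e) ρ


omit [CompleteSpace Ξ] in
theorem Sc.F_diffOn (h : S.Sc ρ₀ c L σ) (hρ : 0 < ρ) (hρ' : ρ ≤ ρ₀) {U : Set Q} {y : Q → P}
    {e : Q → B → W} (a : ∀ q ∈ U, S.Adm c L ρ (y q) (e q)) (hy : DifferentiableOn ℂ y U)
    (he : DifferentiableOn ℂ (fun z : Q × B => e z.1 z.2) (U ×ˢ ball 0 (L * ρ))) :
    DifferentiableOn ℂ (fun z : Q × Ξ => S.F (y z.1) (e z.1) z.2) (U ×ˢ ball 0 (2 * ρ)) := by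
  have h1 : DifferentiableOn ℂ (fun z : Q × Ξ => S.dat z.2) (U ×ˢ ball 0 (2 * ρ)) :=
    h.dat_diff.comp differentiableOn_snd fun z hz => ball_subset_ball (by linarith) hz.2
  exact h.Φ_diff.comp (f := fun z : Q × Ξ => (z.2, y z.1, e z.1 (S.dat z.2)))
    (differentiableOn_snd.prodMk ((hy.comp differentiableOn_fst fun z hz => hz.1).prodMk
      (he.comp (f := fun z : Q × Ξ => (z.1, S.dat z.2)) (differentiableOn_fst.prodMk h1)
        fun z hz => ⟨hz.1, h.dat_mem ρ hρ' _ hz.2⟩))) fun z hz => h.mem' hρ hρ' (a _ hz.1) hz.2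

/-- **holomorphy** of the glued solution in all parameters -/
theorem Sc.gl_diffOn (h : S.Sc ρ₀ c L σ) (hρ : 0 < ρ) (hρ' : ρ ≤ ρ₀) {U : Set Q} (hU : IsOpen U)
    {y : Q → P} {e : Q → B → W} (a : ∀ q ∈ U, S.Adm c L ρ (y q) (e q))
    (hy : DifferentiableOn ℂ y U)
    (he : DifferentiableOn ℂ (fun z : Q × B => e z.1 z.2) (U ×ˢ ball 0 (L * ρ))) :
    DifferentiableOn ℂ (fun q => S.gl ρ (y q) (e q)) U :=
  sol_diffOn (F := fun q => S.F (y q) (e q)) hU (fun q hq => h.near' hρ hρ' (a q hq))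
    (h.F_diffOn hρ hρ' a hy he)

end Sys

end Crest.Agent.N250.Gl

end
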